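import Vale.Agent.P281.H383.ULC.All
import Vale.Agent.P281.H389.C.UBnd

/-!
# P281, project T-ULC (helper389): everything plugged
-/

noncomputable section

namespace Vale.Agent.P281.H389.ULC

open Vale.Agent.P281

/-- **T-UL for the class C** -/
theorem tulC : H383.ULC.TULCStmt :=
  H383.ULC.tulC_all (H389.C.boundCU H383.C.dglob H737.C.null
    (H225.TL.vol_of H64.TK.inputs H511.TL.volF) (H389.C.sheetBoundA H969.TL.en))

end Vale.Agent.P281.H389.ULC
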